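import Vale.Agent.P058.Sufficiency
import Vale.Agent.P058.Necessity
import Vale.Agent.P058.Subtransitive
import Vale.Agent.P058.Graham

set_option autoImplicit false

namespace Vale.Agent.Results.P058.Characterization

open Vale.Agent.P058

theorem result :
    (∀ (d : ℕ) (A : Set (EuclideanSpace ℝ (Fin d))), A.Finite → A.Nonempty →
      (IsRamsey A ↔ QSpherical A)) ∧
    (∀ (d : ℕ) (A : Set (EuclideanSpace ℝ (Fin d))), A.Finite → A.Nonempty →
      IsSubtransitive A → IsRamsey A) ∧
    (∃ A : Set (EuclideanSpace ℝ (Fin 2)), A.Finite ∧ A.Nonempty ∧ IsSpherical A ∧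
      ¬ IsRamsey A) := by
  refine ⟨fun d A hfin _ => ⟨fun h => ?_, fun h => ?_⟩, fun d A _ hne h => ?_, ?_⟩
  · exact necessity A hfin h
  · exact ramsey_of_qspherical A hfin h
  · exact ramsey_of_subtransitive d A hne h
  · exact exists_spherical_not_ramsey

end Vale.Agent.Results.P058.Characterization
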