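import Vale.Agent.P058.Sufficiency
import Vale.Agent.P058.Necessity
import Vale.Agent.P058.Subtransitive
import Vale.Agent.P058.Pentagon
import Vale.Agent.P058.Graham
import Vale.Agent.P058.Algebraic

set_option autoImplicit false

namespace Vale.Agent.Results.P058.FullAnswer

open Vale.Agent.P058

theorem result :
    (∀ (d : ℕ) (A : Set (EuclideanSpace ℝ (Fin d))), A.Finite → A.Nonempty →
      (IsRamsey A ↔ QSpherical A)) ∧
    (∀ (d : ℕ) (A : Set (EuclideanSpace ℝ (Fin d))), A.Finite → A.Nonempty →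
      IsSubtransitive A → IsRamsey A) ∧
    (∃ A : Set (EuclideanSpace ℝ (Fin 2)), A.Finite ∧ A.Nonempty ∧ IsRamsey A ∧
      ¬ IsSubtransitive A) ∧
    (∃ A : Set (EuclideanSpace ℝ (Fin 2)), A.Finite ∧ A.Nonempty ∧ IsSpherical A ∧
      ¬ IsRamsey A) ∧
    (∀ (d : ℕ) (A : Set (EuclideanSpace ℝ (Fin d))), A.Finite → A.Nonempty →
      IsSpherical A → (∀ a ∈ A, ∀ i, IsAlgebraic ℚ (a i)) → IsRamsey A) := by
  refine ⟨fun d A hfin _ => ⟨fun h => ?_, fun h => ?_⟩, fun d A _ hne h => ?_, ?_, ?_,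
    fun d A hfin _ hs halg => ?_⟩
  · exact necessity A hfin h
  · exact ramsey_of_qspherical A hfin h
  · exact ramsey_of_subtransitive d A hne h
  · obtain ⟨A, h1, h2, h3, h4⟩ := Penta.exists_not_subtransitive
    exact ⟨A, h1, h2, ramsey_of_qspherical A h1 h3, h4⟩
  · exact exists_spherical_not_ramsey
  · exact ramsey_of_qspherical A hfin (Alg.qspherical_of_algebraic A hfin hs halg)

end Vale.Agent.Results.P058.FullAnswer
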