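import Vale.Agent.P058.Sufficiency
import Vale.Agent.P058.Subtransitive
import Vale.Agent.P058.Pentagon

set_option autoImplicit false

namespace Vale.Agent.Results.P058.LRWDisproof

open Vale.Agent.P058

theorem result :
    ¬ (∀ (d : ℕ) (A : Set (EuclideanSpace ℝ (Fin d))), A.Finite → A.Nonempty →
      (IsRamsey A ↔ IsSubtransitive A)) ∧
    (∀ (d : ℕ) (A : Set (EuclideanSpace ℝ (Fin d))), A.Finite → A.Nonempty →
      IsSubtransitive A → IsRamsey A) ∧
    ∃ A : Set (EuclideanSpace ℝ (Fin 2)), A.Finite ∧ A.Nonempty ∧ IsRamsey A ∧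
      ¬ IsSubtransitive A := by
  have key : ∃ A : Set (EuclideanSpace ℝ (Fin 2)), A.Finite ∧ A.Nonempty ∧ IsRamsey A ∧
      ¬ IsSubtransitive A := by
    obtain ⟨A, h1, h2, h3, h4⟩ := Penta.exists_not_subtransitive
    exact ⟨A, h1, h2, ramsey_of_qspherical A h1 h3, h4⟩
  refine ⟨fun h => ?_, fun d A _ hne h => ramsey_of_subtransitive d A hne h, key⟩
  obtain ⟨A, h1, h2, h3, h4⟩ := key
  exact h4 ((h 2 A h1 h2).1 h3)

end Vale.Agent.Results.P058.LRWDisproof
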