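import Vale.Agent.P058.Geom

set_option autoImplicit false

namespace Vale.Agent.Results.P058.SubtransitiveRamsey

def IsRamsey {d : ℕ} (A : Set (EuclideanSpace ℝ (Fin d))) : Prop :=
  ∀ r : ℕ, 2 ≤ r → ∃ D : ℕ, 1 ≤ D ∧ ∀ c : EuclideanSpace ℝ (Fin D) → Fin r,
    ∃ f : A → EuclideanSpace ℝ (Fin D), Isometry f ∧ ∃ i : Fin r, ∀ a : A, c (f a) = i

def IsTransitive {n : ℕ} (X : Set (EuclideanSpace ℝ (Fin n))) : Prop :=
  ∀ x ∈ X, ∀ y ∈ X, ∃ g : EuclideanSpace ℝ (Fin n) ≃ᵢ EuclideanSpace ℝ (Fin n),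
    g '' X = X ∧ g x = y

def IsSubtransitive {d : ℕ} (A : Set (EuclideanSpace ℝ (Fin d))) : Prop :=
  ∃ (n : ℕ) (X : Set (EuclideanSpace ℝ (Fin n))), X.Finite ∧ IsTransitive X ∧
    ∃ f : A → EuclideanSpace ℝ (Fin n), Isometry f ∧ ∀ a : A, f a ∈ X

open Vale.Agent.P058 in
theorem result (d : ℕ) (A : Set (EuclideanSpace ℝ (Fin d))) (_hfin : A.Finite)
    (hne : A.Nonempty) (hA : IsSubtransitive A) : IsRamsey A := by
  classical
  obtain ⟨n, X, hXfin, hXtr, f, hf, hfX⟩ := hA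
  obtain ⟨a₀, ha₀⟩ := hne
  have : Finite X := hXfin
  let x₀ : X := ⟨f ⟨a₀, ha₀⟩, hfX _⟩
  have : Nonempty X := ⟨x₀⟩
  let G : Subgroup (Equiv.Perm X) :=
    { carrier := {σ | ∀ x y : X, dist (σ x) (σ y) = dist x y}
      mul_mem' := by
        intro a b ha hb x y
        rw [Equiv.Perm.mul_apply, Equiv.Perm.mul_apply, ha, hb]
      one_mem' := by
        intro x y
        rfl
      inv_mem' := by
        intro a ha x y
        have h := ha (a⁻¹ x) (a⁻¹ y)
        have e : ∀ z, a (a⁻¹ z) = z := fun z => a.apply_symm_apply z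
        rw [e, e] at h
        exact h.symm }
  have htr : ∀ x y : X, ∃ g ∈ G, g x = y := by
    intro x y
    obtain ⟨g, hg, hgx⟩ := hXtr x x.2 y y.2
    have hmem : ∀ z : EuclideanSpace ℝ (Fin n), z ∈ X ↔ g z ∈ X := by
      intro z
      constructor
      · intro hz
        rw [← hg]
        exact Set.mem_image_of_mem _ hz
      · intro hz
        rw [← hg] at hz
        obtain ⟨z', hz', he⟩ := hz
        rwa [← g.injective he]
    let σ : Equiv.Perm X := g.toEquiv.subtypeEquiv hmem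
    have hσ : ∀ z : X, ((σ z : X) : EuclideanSpace ℝ (Fin n)) = g z := fun z => rfl
    refine ⟨σ, ?_, ?_⟩
    · intro z z'
      rw [Subtype.dist_eq, Subtype.dist_eq, hσ, hσ]
      exact g.isometry.dist_eq _ _
    · apply Subtype.ext
      rw [hσ]
      exact hgx
  obtain ⟨m, hm, H⟩ := exists_mono_word G htr
  intro r hr
  by_contra hcon
  push Not at hcon
  let D : ℕ → ℕ := fun N => Fintype.card (Option (Fin N × Fin n))
  have hD : ∀ N, 1 ≤ D N := fun N => Fintype.card_pos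
  choose c hc using fun N => hcon (D N) (hD N)
  let L : ∀ N, EuclideanSpace ℝ (Option (Fin N × Fin n)) ≃ₗᵢ[ℝ] EuclideanSpace ℝ (Fin (D N)) :=
    fun N => LinearIsometryEquiv.piLpCongrLeft 2 ℝ ℝ (Fintype.equivFin _)
  let s : ℝ := (Real.sqrt m)⁻¹
  have hs : s ^ 2 * m = 1 := by
    have hm' : (0 : ℝ) < m := by exact_mod_cast hm
    simp only [s]
    rw [inv_pow, Real.sq_sqrt hm'.le, inv_mul_cancel₀ hm'.ne']
  let χ : FreeMonoid X → Fin r := fun w =>
    c w.toList.length (L w.toList.length (vec x₀ s w.toList.length w))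
  obtain ⟨w, hw, hmono⟩ := H (Fin r) χ
  obtain ⟨N, hN, hSD⟩ := hw.geom x₀ (by
    rintro k ⟨g, hg, rfl⟩ x y
    exact hg x y)
  have hχ : ∀ x, χ (w x) = c N (L N (vec x₀ s N (w x))) := by
    intro x
    have h1 := hN x
    simp only [χ]
    rw [h1]
  have hiso : Isometry (fun a : A => L N (vec x₀ s N (w ⟨f a, hfX a⟩))) := by
    apply Isometry.of_dist_eq
    intro a b
    rw [(L N).dist_map]
    have h2 := dist_vec x₀ s N (w ⟨f a, hfX a⟩) (w ⟨f b, hfX b⟩)
    rw [hSD, ← mul_assoc, hs, one_mul, Subtype.dist_eq] at h2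
    have h3 : dist (f a) (f b) = dist a b := hf.dist_eq a b
    rw [← h3]
    exact (pow_left_inj₀ dist_nonneg dist_nonneg two_ne_zero).1 h2
  obtain ⟨a, ha⟩ := hc N _ hiso (χ (w x₀))
  apply ha
  rw [← hχ]
  exact hmono _ _

end Vale.Agent.Results.P058.SubtransitiveRamsey
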